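import Vale.Agent.P043.Main
import Vale.Agent.P043.Z3.Main
import Vale.Agent.P043.Euclid
import Vale.Agent.P043.Shear.Main
import Vale.Agent.P043.Shear.Forcing

namespace Vale.Agent.Results.P043.NoPeriodicTiling

open MeasureTheory Vale.Agent.P043

/-- The discrete conjecture fails for `d ≥ 3`, the Euclidean one for `d ≥ 3`. -/
theorem result :
    (∀ d : ℕ, 3 ≤ d → ∃ F : Finset (Fin d → ℤ), F.Nonempty ∧
      (∃ A : Set (Fin d → ℤ), ∀ g : Fin d → ℤ,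
        ∃! p : (Fin d → ℤ) × (Fin d → ℤ), p.1 ∈ A ∧ p.2 ∈ F ∧ p.1 + p.2 = g) ∧
      ∀ A : Set (Fin d → ℤ),
        (∀ g : Fin d → ℤ,
          ∃! p : (Fin d → ℤ) × (Fin d → ℤ), p.1 ∈ A ∧ p.2 ∈ F ∧ p.1 + p.2 = g) →
        ¬ ∃ L : AddSubgroup (Fin d → ℤ), L.index ≠ 0 ∧ ∀ h ∈ L, ∀ x, (x + h ∈ A ↔ x ∈ A)) ∧
    (∀ d : ℕ, 3 ≤ d → ∃ Ω : Set (Fin d → ℝ),
      MeasurableSet Ω ∧ Bornology.IsBounded Ω ∧ 0 < volume Ω ∧
      (∃ A : Set (Fin d → ℝ), volume {x : Fin d → ℝ | ∀ a ∈ A, x - a ∉ Ω} = 0 ∧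
        ∀ a ∈ A, ∀ b ∈ A, a ≠ b →
          volume {x : Fin d → ℝ | x - a ∈ Ω ∧ x - b ∈ Ω} = 0) ∧
      ∀ A : Set (Fin d → ℝ),
        (volume {x : Fin d → ℝ | ∀ a ∈ A, x - a ∉ Ω} = 0 ∧
          ∀ a ∈ A, ∀ b ∈ A, a ≠ b →
            volume {x : Fin d → ℝ | x - a ∈ Ω ∧ x - b ∈ Ω} = 0) →
        ¬ ∃ v : Fin d → (Fin d → ℝ), LinearIndependent ℝ v ∧
          ∀ i x, (x + v i ∈ A ↔ x ∈ A)) := by
  refine ⟨fun d hd => ?_, fun d hd => ?_⟩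
  · obtain ⟨F, hF, hex, hno⟩ := Z3.oneBad_all d hd
    refine ⟨F, hF, hex, fun A hA hper => ?_⟩
    obtain ⟨L, hL, hinv⟩ := hper
    exact hno A hA L.index (Nat.pos_of_ne_zero hL)
      fun x z => hinv _ (AddSubgroup.nsmul_index_mem L z) x
  · rcases eq_or_lt_of_le hd with rfl | hd
    · exact Shear.euclid_three_of fun _ hA => Shear.forcing hA
    · exact euclid_bad (by omega) (oneBad_dim d (by omega))

end Vale.Agent.Results.P043.NoPeriodicTiling
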